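import Vale.Agent.P236JI.Run
import Vale.Agent.P236JB.Z.B11

/-!
# P236JC : one run of the test (generated)
-/

namespace Vale.Agent.P236JC

set_option maxHeartbeats 0 in
theorem k10_2 : P236JW.okQ 10 P236JB.Z.bs11 (nat_lit 0x5a585654545252504e4e4b494948474745454443434242413f3d3c3c3b3a36343230211f1d1b19171513110f) (nat_lit 44)
    (nat_lit 0x7ffffff0000000000000000) = true := by decide +kernel

end Vale.Agent.P236JC
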