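import Vale.Agent.P236JI.Run
import Vale.Agent.P236JB.Z.B12

/-!
# P236JC : one run of the test (generated)
-/

namespace Vale.Agent.P236JC

set_option maxHeartbeats 0 in
theorem k11_2 : P236JW.okQ 11 P236JB.Z.bs12 (nat_lit 0x5a585656545452514f4e4d4b4b4949484747454544434242403e3e3c3c3a3836333123211f1d1b1816141210) (nat_lit 44)
    (nat_lit 0x7ffffff0000000000000000) = true := by decide +kernel

end Vale.Agent.P236JC
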