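import Vale.Agent.P236JI.Run
import Vale.Agent.P236JB.Z.B13

/-!
# P236JC : the curvature check (generated)
-/

namespace Vale.Agent.P236JC

theorem k12_11 : P236JW.okQ 12 P236JB.Z.bs13 (nat_lit 745435915857292030064021912671558637801065805667794336307968800762738919528529222778226017178642) (nat_lit 40)
    (nat_lit 3618502761706184439835953486854482033395056347164123203692477019143675052032) = true := by decide +kernel

end Vale.Agent.P236JC
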