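import Vale.Agent.P236JI.Run
import Vale.Agent.P236JB.Z.B13

/-!
# P236JC : the curvature check (generated)
-/

namespace Vale.Agent.P236JC

theorem k12_12 : P236JW.okQ 12 P236JB.Z.bs13 (nat_lit 745435915857292030064021912671558637801065805667794336307968800762738919528529222778226017178642) (nat_lit 40)
    (nat_lit 650495757471409184547419256037684665268917362658077740612881090322155669112371567733320957010482425346001468074329110245310397618291476662215097059362495233272588882986521699747578975101752882318546450486602842251394904354919331443165851780975508670638514261257531107302813262778017653892708572620819120981350035227947487642062115978979053186433415878268301141910207048319038478352384) = true := by decide +kernel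

end Vale.Agent.P236JC
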