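import Vale.Agent.P236JI.Run
import Vale.Agent.P236JB.Z.B14

/-!
# P236JC : a part of the test in degree 13 (generated)
-/

set_option maxRecDepth 100000

namespace Vale.Agent.P236JC

theorem k13_1 : P236JW.okQ 13 P236JB.Z.bs14 (nat_lit 0x595757555251504e4c4c4a4a47454341413f3f3d3b393634262422201e1b19171513) (nat_lit 34)
    (nat_lit 0x7ffffff07ffffff07ffffff0000000000000000) = true := by
  decide +kernel

end Vale.Agent.P236JC
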