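import Vale.Agent.P236JI.Run
import Vale.Agent.P236JB.Z.B15

/-!
# P236JC : a part of the test in degree 14 (generated)
-/

set_option maxRecDepth 100000

namespace Vale.Agent.P236JC

theorem k14_2 : P236JW.okQ 14 P236JB.Z.bs15 (nat_lit 0x5a58575654524f4d4d4b494745434241403e3c3a3836272523211f1d1b191715) (nat_lit 32)
    (nat_lit 0x7ffffff07ffffff07ffffff07ffffff07ffffff07ffffff07ffffff07ffffff07ffffff07ffffff07ffffff07ffffff07ffffff07ffffff07ffffff07ffffff07ffffff07ffffff07ffffff07ffffff07ffffff07ffffff07ffffff07ffffff0000000000000000000000000000000000000000000000000000000000000000) = true := by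
  decide +kernel

end Vale.Agent.P236JC
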