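import Vale.Agent.P236JI.Run
import Vale.Agent.P236JB.Z.B16

/-!
# P236JC : a part of the test in degree 15 (generated)
-/

set_option maxRecDepth 100000

namespace Vale.Agent.P236JC

theorem k15_1 : P236JW.okQ 15 P236JB.Z.bs16 (nat_lit 0x5a5a5855534f4d4a484644444242403e3c393729272523211e1c1a1816) (nat_lit 29)
    (nat_lit 0x7ffffff07ffffff07ffffff07ffffff07ffffff07ffffff07ffffff07ffffff07ffffff000000000000000000000000) = true := by
  decide +kernel

end Vale.Agent.P236JC
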