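import Vale.Agent.P236JI.Run
import Vale.Agent.P236JB.Z.B17

/-!
# P236JC : a part of the test in degree 16 (generated)
-/

set_option maxRecDepth 100000

namespace Vale.Agent.P236JC

theorem k16_0 : P236JW.okQ 16 P236JB.Z.bs17 (nat_lit 0x5a59504e4c4a4846454443413f3d3b392a28262422201e1c1a18) (nat_lit 26)
    (nat_lit 0x7ffffff07ffffff07ffffff07ffffff07ffffff) = true := by
  decide +kernel

end Vale.Agent.P236JC
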