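import Vale.Agent.P236JI.Run
import Vale.Agent.P236JB.Z.B2

/-!
# P236JC : the curvature check (generated)
-/

namespace Vale.Agent.P236JC

theorem k1_10 : P236JW.okQ 1 P236JB.Z.bs2 (nat_lit 348345926401) (nat_lit 5)
    (nat_lit 276701161105643274240) = true := by decide +kernel

end Vale.Agent.P236JC
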