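import Vale.Agent.P236JI.Run
import Vale.Agent.P236JB.Z.B4

/-!
# P236JC : one run of the test (generated)
-/

namespace Vale.Agent.P236JC

set_option maxHeartbeats 0 in
theorem k3_0 : P236JW.okQ 3 P236JB.Z.bs4 (nat_lit 0x5a5a58565454524845403f3d362e2d2422201e1e1c181715120f0c0a080604) (nat_lit 31)
    (nat_lit 0x3) = true := by decide +kernel

end Vale.Agent.P236JC
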