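import Vale.Agent.P236JI.Run
import Vale.Agent.P236JB.Z.B5

/-!
# P236JC : a part of the test in degree 4 (generated)
-/

namespace Vale.Agent.P236JC

open Vale.Agent.P236JW Vale.Agent.P236JB.Z

theorem k4_12 : okQ 4 bs5 (nat_lit 192992678161560861132938931335132276667006153046180703893355915517106788701200455471231017534752774) (nat_lit 41)
    (nat_lit 15541351022013743330039499831017166244451346859147131504373935238453650273728538345472) = true := by
  decide +kernel

end Vale.Agent.P236JC
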