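import Vale.Agent.P236JI.Run
import Vale.Agent.P236JB.Z.B5

/-!
# P236JC : a part of the test in degree 4 (generated)
-/

namespace Vale.Agent.P236JC

open Vale.Agent.P236JW Vale.Agent.P236JB.Z

theorem k4_17 : okQ 4 bs5 (nat_lit 192992678161560861132938931335132276667006153046180703893355915517106788701200455471231017534752774) (nat_lit 41)
    (nat_lit 2793858004526450102665194265882506180890707117943015526157895279270480703058633232414862359831443946043837789747231625644386695139318183659761080787427687635861660305680281509210183153239226901831893658954266225338774385324977472782381410832204005636715999646552743361380575347036809978995671357794315662403583025618355062071688418387575519257461959098807236588760870467503008262567204426350592) = true := by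
  decide +kernel

end Vale.Agent.P236JC
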