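import Vale.Agent.P236JI.Run
import Vale.Agent.P236JB.Z.B6

/-!
# P236JC : the curvature check (generated)
-/

namespace Vale.Agent.P236JC

theorem k5_36 : P236JW.okQ 5 P236JB.Z.bs6 (nat_lit 828861405155490801838884857677546225385886020490174721035885081426094958760269123736795053231516722202872071) (nat_lit 45)
    (nat_lit 950700614621270448339294067106355603165370944928716477305522871346371586554144617433881815973491184820260395961302433872861421875999652082104478440681681737874190018362832141092733309158865498864674486487703731519639524084778041203211434776789085824476532305385453821712061964075988310115943669345359082451085704385168953728593655329077989343946491284366492252198465602974767088823059107346108834467013862946901712387959896982683648) = true := by decide +kernel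

end Vale.Agent.P236JC
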