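import Vale.Agent.P236JI.Run
import Vale.Agent.P236JB.Z.B7

/-!
# P236JC : the curvature check (generated)
-/

namespace Vale.Agent.P236JC

theorem k6_2 : P236JW.okQ 6 P236JB.Z.bs7 (nat_lit 3237739863888570630719355035285021288128736689700432028136944470719810960538757657270354218653366530935561) (nat_lit 44)
    (nat_lit 10633823887051164468966118888698806272) = true := by decide +kernel

end Vale.Agent.P236JC
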