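import Vale.Agent.P236JI.Run
import Vale.Agent.P236JB.Z.B7

/-!
# P236JC : the curvature check (generated)
-/

namespace Vale.Agent.P236JC

theorem k6_9 : P236JW.okQ 6 P236JB.Z.bs7 (nat_lit 3237739863888570630719355035285021288128736689700432028136944470719810960538757657270354218653366530935561) (nat_lit 44)
    (nat_lit 221352236024399858047090020753991697720571175433862134186905545961663962005205596199697306373503800672539602024783947009793813777156093176944292718703318791900340006305564227768390744263042113479383868744527858570134156403312934842850965258246611170411210536533020483111322395801907919138251230385342444439775310375495403074575608852200389061638354730251799543299596434141430911387260278194192929741969202486244488893169664) = true := by decide +kernel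

end Vale.Agent.P236JC
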