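import Vale.Agent.P236JI.Run
import Vale.Agent.P236JB.Z.B8

/-!
# P236JC : the curvature check (generated)
-/

namespace Vale.Agent.P236JC

theorem k7_11 : P236JW.okQ 7 P236JB.Z.bs8 (nat_lit 192992678160562314085719776724008626118511311380841388478404504654766365314574867741729114874055690) (nat_lit 41)
    (nat_lit 45670706254305304629473634824416201475209822208) = true := by decide +kernel

end Vale.Agent.P236JC
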