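import Vale.Agent.P236JI.Run
import Vale.Agent.P236JB.Z.B8

/-!
# P236JC : the curvature check (generated)
-/

namespace Vale.Agent.P236JC

theorem k7_19 : P236JW.okQ 7 P236JB.Z.bs8 (nat_lit 192992678160562314085719776724008626118511311380841388478404504654766365314574867741729114874055690) (nat_lit 41)
    (nat_lit 2793858004526450102665194265882506180890707117943015526157895279270480703058633232414862359831443946043837789747231625644386695139318183659761080787427687635861660305680281509210183153239226901831893659096842493577192000273979888081339101630180141829047262023088663146844647921500858585600961233137167375027583862014521318037708410237399281397443146521086472438461000153598746281870584870600704) = true := by decide +kernel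

end Vale.Agent.P236JC
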