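import Vale.Agent.P236JI.Run
import Vale.Agent.P236JB.Z.B8

/-!
# P236JC : the curvature check (generated)
-/

namespace Vale.Agent.P236JC

theorem k7_21 : P236JW.okQ 7 P236JB.Z.bs8 (nat_lit 192992678160562314085719776724008626118511311380841388478404504654766365314574867741729114874055690) (nat_lit 41)
    (nat_lit 33196124311446617185242714473093022888309592167064746502693897645956064055838899845222236792862672679421536133661649161750417530980425500356303974702832965990628497594229043824164864) = true := by decide +kernel

end Vale.Agent.P236JC
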