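import Vale.Agent.P236JI.Run
import Vale.Agent.P236JB.Z.B9

/-!
# P236JC : a run of the test (generated)
-/

namespace Vale.Agent.P236JC

theorem k8_1 : P236JW.okQ 8 P236JB.Z.bs9
    (nat_lit 0x5a5a585555535351514f4d4b48474644424240403f3e3c3a3938332e2d291e1c1a18161412100e0c) (nat_lit 40)
    (nat_lit 0x7ffffff00000000) = true := by decide +kernel

end Vale.Agent.P236JC
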