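import Vale.Agent.P236JI.Run
import Vale.Agent.P236JB.Z.B10

/-!
# P236JC : the curvature check (generated)
-/

namespace Vale.Agent.P236JC

theorem k9_2 : P236JW.okQ 9 P236JB.Z.bs10 (nat_lit 12647417046211525754294118676358551032279670517851280674076196979021816152879575140581013638897197977357) (nat_lit 43)
    (nat_lit 2475880060124016476088696832) = true := by decide +kernel

end Vale.Agent.P236JC
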