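import Vale.Agent.P236JI.Run
import Vale.Agent.P236JB.Z.B10

/-!
# P236JC : the curvature check (generated)
-/

namespace Vale.Agent.P236JC

theorem k9_6 : P236JW.okQ 9 P236JB.Z.bs10 (nat_lit 12647417046211525754294118676358551032279670517851280674076196979021816152879575140581013638897197977357) (nat_lit 43)
    (nat_lit 51537583587784287065055691812651161505042383315475223163819300467535844539572856435481763066142751060551871085721987069070761505783557234551825727965524138859552332736915961785332938717455163942506506281096455308174285200264522536390220108033765845562147567172772363552665895736289191790449253838821883415751285312739236535251116160783010001414938099566438548979428602483466682180307851702239021473886071158734848) = true := by decide +kernel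

end Vale.Agent.P236JC
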